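import Mathlib

/-!
# P268: convergent power series, reduced germs, ambient homeomorphisms
-/

open Filter Topology MvPowerSeries

namespace Vale.Agent.N268

variable {N : ℕ}

/-- the term `c_a z ^ a` of the power series `f = ∑ c_a z ^ a` at the point `z` -/
noncomputable def term (f : MvPowerSeries (Fin N) ℂ) (z : Fin N → ℂ) (a : Fin N →₀ ℕ) : ℂ :=
  coeff a f * ∏ i, z i ^ a i

/-- `f` converges at every point of some neighbourhood of the origin -/
def Conv (f : MvPowerSeries (Fin N) ℂ) : Prop := ∀ᶠ z in 𝓝 0, Summable (term f z)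

/-- `f` is convergent, `f (0) = 0`, and `f` is not `u ^ 2 * v` with `u`, `v` convergent and
`u (0) = 0` (so `f ≠ 0` and `f` has no repeated irreducible factor) -/
def Reduced (f : MvPowerSeries (Fin N) ℂ) : Prop :=
  Conv f ∧ constantCoeff f = 0 ∧
    ∀ u v, Conv u → Conv v → constantCoeff u = 0 → f ≠ u ^ 2 * v

/-- a homeomorphism `φ` between open neighbourhoods `U`, `U'` of the origin, on which `f`, `g`
converge, with `φ 0 = 0` and `φ (V (f) ∩ U) = V (g) ∩ U'` -/
def AmbHomeo (f g : MvPowerSeries (Fin N) ℂ) : Prop :=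
  ∃ φ : OpenPartialHomeomorph (Fin N → ℂ) (Fin N → ℂ), 0 ∈ φ.source ∧ φ 0 = 0 ∧
    (∀ z ∈ φ.source, Summable (term f z)) ∧ (∀ z ∈ φ.target, Summable (term g z)) ∧
    φ '' ({z | HasSum (term f z) 0} ∩ φ.source) = {z | HasSum (term g z) 0} ∩ φ.target

end Vale.Agent.N268
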