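import Vale.Agent.P268.Defs

/-!
# P268: a germ is reduced if generic lines avoid its singular set
-/

open Filter Topology Metric Set

namespace Vale.Agent.N268

variable {E : Type*} [NormedAddCommGroup E] [NormedSpace ℂ E]

theorem analyticAt_line {u : E → ℂ} (a b : E) (t : ℂ) (hu : AnalyticAt ℂ u (b + t • a)) :
    AnalyticAt ℂ (fun s : ℂ => u (b + s • a)) t :=
  AnalyticAt.fun_comp (g := u) (f := fun s : ℂ => b + s • a) hu
    (analyticAt_const.add (analyticAt_id.smul analyticAt_const))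

theorem exists_dir {u : E → ℂ} (hu : AnalyticAt ℂ u 0) (h : ∃ᶠ z in 𝓝 0, u z ≠ 0) :
    ∃ a : E, ∀ᶠ t : ℂ in 𝓝[≠] 0, u (0 + t • a) ≠ 0 := by
  obtain ⟨r, hr, hb⟩ := Metric.eventually_nhds_iff_ball.1 hu.eventually_analyticAt
  obtain ⟨z, hz, hz'⟩ := (h.and_eventually (ball_mem_nhds 0 hr)).exists
  refine ⟨z, ((analyticAt_line z 0 0 (by simpa using hu)).eventually_eq_zero_or_eventually_ne_zero
    ).resolve_left fun k => hz ?_⟩
  have an : AnalyticOnNhd ℂ (fun s : ℂ => u (0 + s • z)) (closedBall 0 1) := by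
    intro s hs
    refine analyticAt_line z 0 s (hb _ ?_)
    replace hz' : ‖z‖ < r := mem_ball_zero_iff.1 hz'
    rw [mem_closedBall_zero_iff] at hs
    rw [mem_ball_zero_iff, zero_add, norm_smul]
    exact (mul_le_of_le_one_left (norm_nonneg _) hs).trans_lt hz'
  have := an.eqOn_zero_of_preconnected_of_eventuallyEq_zero
    (convex_closedBall 0 1).isPreconnected (mem_closedBall_self zero_le_one) k
    (show (1 : ℂ) ∈ closedBall 0 1 by simp)
  simpa using this

/-- all lines near a line on which `u` has an isolated zero meet the zero set of `u` -/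
theorem line_meets {u : E → ℂ} (hu : AnalyticAt ℂ u 0) (h0 : u 0 = 0) {a : E}
    (ha : ∀ᶠ t : ℂ in 𝓝[≠] 0, u (0 + t • a) ≠ 0) {U : Set E} (hU : U ∈ 𝓝 (0 : E)) :
    ∀ᶠ b in 𝓝 (0 : E), ∃ t : ℂ, b + t • a ∈ U ∧ u (b + t • a) = 0 := by
  have hc : Continuous fun q : E × ℂ => q.1 + q.2 • a := by fun_prop
  have h1 : ∀ᶠ q : E × ℂ in 𝓝 (0, 0), q.1 + q.2 • a ∈ U ∧ AnalyticAt ℂ u (q.1 + q.2 • a) := by
    have : Tendsto (fun q : E × ℂ => q.1 + q.2 • a) (𝓝 (0, 0)) (𝓝 0) := by
      simpa using hc.tendsto (0, 0)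
    exact this.eventually ((show ∀ᶠ z in 𝓝 (0 : E), z ∈ U from hU).and hu.eventually_analyticAt)
  rw [nhds_prod_eq, eventually_prod_iff] at h1
  obtain ⟨pa, hpa, pb, hpb, h1⟩ := h1
  rw [eventually_nhdsWithin_iff] at ha
  obtain ⟨R, hR, hb⟩ := Metric.eventually_nhds_iff_ball.1 (ha.and hpb)
  obtain ⟨r, hr, hrR⟩ := exists_between hR
  have sub : closedBall (0 : ℂ) r ⊆ ball 0 R := closedBall_subset_ball hrR
  have p0 := hpa.self_of_nhds
  have cs : ContinuousOn (fun t : ℂ => ‖u (0 + t • a)‖) (sphere 0 r) := fun t ht =>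
    (analyticAt_line a 0 t
      (h1 p0 (hb t (sub (sphere_subset_closedBall ht))).2).2).continuousAt.norm.continuousWithinAt
  obtain ⟨t0, ht0, hm⟩ := (isCompact_sphere (0 : ℂ) r).exists_isMinOn
    (NormedSpace.sphere_nonempty.2 hr.le) cs
  have m0 : 0 < ‖u (0 + t0 • a)‖ := norm_pos_iff.2 ((hb t0 (sub (sphere_subset_closedBall ht0))).1
    (by rintro rfl; exact hr.ne (by simpa using ht0)))
  set m := ‖u (0 + t0 • a)‖ with hmd
  have h2 : ∀ᶠ b in 𝓝 (0 : E), ∀ t ∈ sphere (0 : ℂ) r, m / 2 < ‖u (b + t • a)‖ := by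
    refine (isCompact_sphere (0 : ℂ) r).eventually_forall_of_forall_eventually fun t ht => ?_
    have c1 : ContinuousAt (fun q : E × ℂ => ‖u (q.1 + q.2 • a)‖) (0, t) :=
      (ContinuousAt.comp (g := u) (f := fun q : E × ℂ => q.1 + q.2 • a)
        (h1 p0 (hb t (sub (sphere_subset_closedBall ht))).2).2.continuousAt
        hc.continuousAt).norm
    exact c1.eventually (lt_mem_nhds ((half_lt_self m0).trans_le (hm ht)))
  have h3 : ∀ᶠ b in 𝓝 (0 : E), ‖u b‖ < m / 2 :=
    hu.continuousAt.norm.eventually (gt_mem_nhds (by simpa [h0] using m0))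
  filter_upwards [hpa, h2, h3] with b b1 b2 b3
  by_contra! hn
  have hne : ∀ t ∈ closedBall (0 : ℂ) r, u (b + t • a) ≠ 0 := fun t ht =>
    hn t (h1 b1 (hb t (sub ht)).2).1
  have hd : DiffContOnCl ℂ (fun t : ℂ => (u (b + t • a))⁻¹) (ball 0 r) := by
    refine DifferentiableOn.diffContOnCl ?_
    rw [closure_ball _ hr.ne']
    exact fun t ht => ((analyticAt_line a b t
      (h1 b1 (hb t (sub ht)).2).2).differentiableAt.inv (hne t ht)).differentiableWithinAt
  have := Complex.norm_le_of_forall_mem_frontier_norm_le isBounded_ball hd (C := (m / 2)⁻¹)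
    (z := 0) (fun t ht => by
      rw [frontier_ball _ hr.ne'] at ht
      rw [norm_inv]
      exact inv_anti₀ (half_pos m0) (b2 t ht).le) (subset_closure (mem_ball_self hr))
  have n0 := hne 0 (mem_closedBall_self hr.le)
  simp only [zero_smul, add_zero, norm_inv] at this n0
  exact absurd ((inv_le_inv₀ (norm_pos_iff.2 n0) (half_pos m0)).1 this) (not_le.2 b3)

/-- near the origin there are lines in every direction which avoid the singular set of `F` and
finitely many given translates of the zero set -/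
def Strong (F : E → ℂ) : Prop :=
  ∀ (a : E) (T : Set ℂ), T.Finite → ∃ᶠ b in 𝓝 (0 : E), (∀ t ∈ T, F (b + t • a) ≠ 0) ∧
    ∀ t : ℂ, F (b + t • a) = 0 → fderiv ℂ F (b + t • a) ≠ 0

theorem Strong.red {F : E → ℂ} (h : Strong F) {u v : E → ℂ} (hu : AnalyticAt ℂ u 0)
    (hv : AnalyticAt ℂ v 0) (h0 : u 0 = 0) : ¬ ∀ᶠ z in 𝓝 0, F z = u z ^ 2 * v z := by
  intro he
  obtain ⟨a, ha⟩ := exists_dir hu (((h 0 {0} (finite_singleton _)).and_eventually he).mono (by
    rintro z ⟨⟨h1, -⟩, h2⟩ k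
    refine h1 0 rfl ?_
    rw [zero_smul, add_zero, h2, k]
    simp))
  obtain ⟨b, ⟨-, h1⟩, t, ⟨h2, h3, h4⟩, h5⟩ := ((h a ∅ finite_empty).and_eventually
    (line_meets hu h0 ha (he.eventually_nhds.and
      (hu.eventually_analyticAt.and hv.eventually_analyticAt)))).exists
  refine h1 t (by rw [h2.self_of_nhds, h5]; simp) ?_
  have e : F =ᶠ[𝓝 (b + t • a)] fun z => u z * (u z * v z) := h2.mono fun z hz => by
    rw [hz]; ring
  have d1 := h3.differentiableAt.hasFDerivAt
  have d2 := d1.mul (d1.mul h4.differentiableAt.hasFDerivAt)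
  rw [e.fderiv_eq]
  refine d2.fderiv.trans ?_
  ext w
  simp [h5]

theorem dense_ne {F : E → ℂ} (hF : AnalyticOnNhd ℂ F univ) (h : ∃ z, F z ≠ 0) :
    IsOpen {z | F z ≠ 0} ∧ Dense {z | F z ≠ 0} := by
  refine ⟨isOpen_ne_fun (continuousOn_univ.1 hF.continuousOn) continuous_const, fun z => ?_⟩
  rw [mem_closure_iff_frequently]
  intro k
  obtain ⟨w, hw⟩ := h
  have : IsPreconnected (univ : Set E) :=
    letI := NormedSpace.restrictScalars ℝ ℂ E
    convex_univ.isPreconnected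
  exact hw (hF.eqOn_zero_of_preconnected_of_eventuallyEq_zero this (mem_univ z)
    (k.mono fun y hy => by simpa using hy) (mem_univ w))

theorem strong_of [CompleteSpace E] {F : E → ℂ} (hF : AnalyticOnNhd ℂ F univ) (h : ∃ z, F z ≠ 0)
    (hl : ∀ a : E, ∃ l : E → ℂ, AnalyticOnNhd ℂ l univ ∧ (∃ z, l z ≠ 0) ∧
      ∀ b (t : ℂ), l b ≠ 0 → F (b + t • a) = 0 → fderiv ℂ F (b + t • a) ≠ 0) : Strong F := by
  intro a T hT
  obtain ⟨l, l1, l2, l3⟩ := hl a
  have k : ∀ t : ℂ, IsOpen {b | F (b + t • a) ≠ 0} ∧ Dense {b | F (b + t • a) ≠ 0} := fun t => by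
    refine dense_ne (fun b _ => AnalyticAt.fun_comp (g := F) (f := fun b => b + t • a)
      (hF _ trivial) (analyticAt_id.add analyticAt_const)) ?_
    obtain ⟨z, hz⟩ := h
    exact ⟨z - t • a, by rwa [sub_add_cancel]⟩
  have d := (dense_biInter_of_isOpen (fun t _ => (k t).1) hT.countable
    fun t _ => (k t).2).inter_of_isOpen_right (dense_ne l1 l2).2 (dense_ne l1 l2).1
  refine (mem_closure_iff_frequently.1 (d 0)).mono ?_
  rintro b ⟨b1, b2⟩
  exact ⟨fun t ht => mem_iInter₂.1 b1 t ht, fun t => l3 b t b2⟩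

end Vale.Agent.N268
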