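import Vale.Agent.N268.Prod

/-!
# P268: Zariski's multiplicity conjecture fails, for every multiplicity `n ≥ 2`
-/

namespace Vale.Agent.N268.OldAllMultiplicities

open Vale.Agent.N268

theorem result :
    (¬ ∀ N, 1 ≤ N → ∀ f g : MvPowerSeries (Fin N) ℂ, Reduced f → Reduced g →
      AmbHomeo f g → f.order = g.order) ∧
    ∀ n : ℕ, 2 ≤ n → ∃ N₀, ∀ N ≥ N₀, ∃ f : ℕ → MvPolynomial (Fin N) ℂ,
      ∀ m, n ≤ m → 2 * m ≤ 3 * n →
        Reduced (f m : MvPowerSeries (Fin N) ℂ) ∧ (f m : MvPowerSeries (Fin N) ℂ).order = m ∧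
        ∃ φ : (Fin N → ℂ) ≃ₜ (Fin N → ℂ), φ 0 = 0 ∧
          φ '' {z | MvPolynomial.eval z (f m) = 0} = {z | MvPolynomial.eval z (f n) = 0} :=
  ⟨not_q1, many⟩

end Vale.Agent.N268.OldAllMultiplicities
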