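import Vale.Agent.N268.Line
import Vale.Agent.N268.Defs
import Vale.Agent.P268W88.Poly
import Vale.Agent.P268.H671.LargeTop

/-!
# P268: products in disjoint sets of variables
-/

open Filter Topology Set MvPolynomial

namespace Vale.Agent.N268

variable {N M : ℕ}

/-- the product in disjoint sets of variables -/
noncomputable def ext (P : MvPolynomial (Fin N) ℂ) (Q : MvPolynomial (Fin M) ℂ) :
    MvPolynomial (Fin (N + M)) ℂ :=
  rename (Fin.castAdd M) P * rename (Fin.natAdd N) Q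

theorem eval_ext (P : MvPolynomial (Fin N) ℂ) (Q : MvPolynomial (Fin M) ℂ)
    (z : Fin (N + M) → ℂ) :
    eval z (ext P Q) = eval (z ∘ Fin.castAdd M) P * eval (z ∘ Fin.natAdd N) Q := by
  rw [ext, map_mul, eval_rename, eval_rename]

theorem eval_ext_append (P : MvPolynomial (Fin N) ℂ) (Q : MvPolynomial (Fin M) ℂ)
    (x : Fin N → ℂ) (y : Fin M → ℂ) :
    eval (Fin.append x y) (ext P Q) = eval x P * eval y Q := by
  rw [eval_ext, show Fin.append x y ∘ Fin.castAdd M = x from funext (Fin.append_left x y),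
    show Fin.append x y ∘ Fin.natAdd N = y from funext (Fin.append_right x y)]

theorem order_rename {f : Fin N → Fin M} (hf : Function.Injective f)
    {P : MvPolynomial (Fin N) ℂ} {m : ℕ} (h : (P : MvPowerSeries (Fin N) ℂ).order = m) :
    ((rename f P : MvPolynomial (Fin M) ℂ) : MvPowerSeries (Fin M) ℂ).order = m := by
  rw [MvPowerSeries.order_eq_nat] at h ⊢
  obtain ⟨⟨d, h1, h2⟩, h3⟩ := h
  simp only [coeff_coe] at h1 h3 ⊢
  refine ⟨⟨d.mapDomain f, by rwa [coeff_rename_mapDomain f hf], by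
    rw [Finsupp.degree_mapDomain, h2]⟩, fun e he => ?_⟩
  by_contra k
  obtain ⟨u, rfl, hu⟩ := coeff_rename_ne_zero f P e k
  rw [Finsupp.degree_mapDomain] at he
  exact hu (h3 u he)

theorem order_ext {P : MvPolynomial (Fin N) ℂ} {Q : MvPolynomial (Fin M) ℂ} {m n : ℕ}
    (hP : (P : MvPowerSeries (Fin N) ℂ).order = m) (hQ : (Q : MvPowerSeries (Fin M) ℂ).order = n) :
    (ext P Q : MvPowerSeries (Fin (N + M)) ℂ).order = (m + n : ℕ) := by
  rw [ext, coe_mul, MvPowerSeries.order_mul, order_rename (Fin.castAdd_injective _ _) hP,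
    order_rename (Fin.natAdd_injective _ _) hQ, Nat.cast_add]

theorem diff_eval (P : MvPolynomial (Fin N) ℂ) (z : Fin N → ℂ) :
    DifferentiableAt ℂ (fun z => eval z P) z :=
  (AnalyticOnNhd.eval_mvPolynomial P z trivial).differentiableAt

theorem eval_line (P : MvPolynomial (Fin N) ℂ) (a b : Fin N → ℂ) (t : ℂ) :
    (aeval (fun i => Polynomial.C (b i) + Polynomial.X * Polynomial.C (a i)) P).eval t =
      eval (b + t • a) P := by
  induction P using MvPolynomial.induction_on with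
  | C c => simp
  | add p q hp hq => rw [map_add, Polynomial.eval_add, hp, hq, map_add]
  | mul_X p i hp =>
    rw [map_mul, Polynomial.eval_mul, hp, map_mul]
    congr 1
    simp [mul_comm t]

theorem finite_roots (P : MvPolynomial (Fin N) ℂ) (a b : Fin N → ℂ) (h : eval b P ≠ 0) :
    {t : ℂ | eval (b + t • a) P = 0}.Finite := by
  have e := eval_line P a b
  refine (Polynomial.finite_setOfPred_isRoot (p := aeval (fun i => Polynomial.C (b i) +
    Polynomial.X * Polynomial.C (a i)) P) fun k => h ?_).subset fun t ht => (e t).trans ht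
  have := e 0
  rw [k, zero_smul, add_zero] at this
  simpa using this.symm

theorem fderiv_comp_ne {E F : Type*} [NormedAddCommGroup E] [NormedSpace ℂ E]
    [NormedAddCommGroup F] [NormedSpace ℂ F] {G : F → ℂ} {g : E → F} {p : E → ℂ} {c : ℂ} {x : E}
    (hG : DifferentiableAt ℂ G (g x)) (hg : DifferentiableAt ℂ g x)
    (hp : DifferentiableAt ℂ p x) (e : ∀ y, G (g y) = c * p y) (hc : c ≠ 0)
    (h : fderiv ℂ p x ≠ 0) : fderiv ℂ G (g x) ≠ 0 := by
  intro k
  have h1 := hG.hasFDerivAt.comp x hg.hasFDerivAt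
  rw [k, show G ∘ g = fun y => c * p y from funext e] at h1
  have h2 := h1.unique (hp.hasFDerivAt.const_mul c)
  rw [ContinuousLinearMap.zero_comp] at h2
  exact h ((smul_eq_zero.1 h2.symm).resolve_left hc)

theorem strong_ext {P : MvPolynomial (Fin N) ℂ} {Q : MvPolynomial (Fin M) ℂ}
    (hP : Strong fun z => eval z P) (hQ : Strong fun z => eval z Q) :
    Strong fun z => eval z (ext P Q) := by
  intro a T hT
  obtain ⟨⟨a1, a2⟩, rfl⟩ := (Fin.appendEquiv N M).surjective a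
  have ap : ∀ (x : Fin N → ℂ) (y : Fin M → ℂ) (t : ℂ),
      Fin.append x y + t • Fin.appendEquiv N M (a1, a2) = Fin.append (x + t • a1) (y + t • a2) := by
    intro x y t
    funext i
    refine Fin.addCases (fun i => ?_) (fun i => ?_) i <;> simp [Fin.appendEquiv]
  have tt : Tendsto (fun q : (Fin N → ℂ) × (Fin M → ℂ) => Fin.append q.1 q.2)
      (𝓝 0 ×ˢ 𝓝 0) (𝓝 0) := by
    have := (Fin.appendHomeomorph (X := ℂ) N M).continuous.tendsto (0, 0)
    rw [nhds_prod_eq, show Fin.appendHomeomorph (X := ℂ) N M (0, 0) = 0 from funext fun i =>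
      Fin.addCases (fun i => Fin.append_left _ _ i) (fun i => Fin.append_right _ _ i) i] at this
    exact this
  refine tt.frequently ?_
  rw [frequently_iff]
  intro U hU
  obtain ⟨U1, h1, U2, h2, hU⟩ := mem_prod_iff.1 hU
  obtain ⟨x, ⟨x1, x2⟩, x3⟩ := ((hP a1 (insert 0 T) (hT.insert 0)).and_eventually h1).exists
  have x0 : eval x P ≠ 0 := by simpa using x1 0 (mem_insert _ _)
  obtain ⟨y, ⟨y1, y2⟩, y3⟩ := ((hQ a2 _ (hT.union (finite_roots P a1 x x0))).and_eventually
    h2).exists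
  refine ⟨(x, y), hU ⟨x3, y3⟩, fun t ht => ?_, fun t ht => ?_⟩
  · beta_reduce
    rw [ap, eval_ext_append]
    exact mul_ne_zero (x1 t (mem_insert_of_mem _ ht)) (y1 t (.inl ht))
  beta_reduce at ht
  rw [ap] at ht ⊢
  rw [eval_ext_append] at ht
  by_cases c : eval (x + t • a1) P = 0
  · refine fderiv_comp_ne (G := fun z => eval z (ext P Q))
      (g := fun x' => Fin.append x' (y + t • a2)) (diff_eval _ _) ?_ (diff_eval P _)
      (fun x' => (eval_ext_append _ _ _ _).trans (mul_comm _ _)) (y1 t (.inr c)) (x2 t c)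
    refine differentiableAt_pi.2 fun i => Fin.addCases (fun i => ?_) (fun i => ?_) i
    · simp only [Fin.append_left]
      exact differentiableAt_apply i _
    · simp only [Fin.append_right]
      exact differentiableAt_const _
  · refine fderiv_comp_ne (G := fun z => eval z (ext P Q))
      (g := fun y' => Fin.append (x + t • a1) y') (diff_eval _ _) ?_ (diff_eval Q _)
      (fun y' => eval_ext_append _ _ _ _) c (y2 t ((mul_eq_zero.1 ht).resolve_left c))
    refine differentiableAt_pi.2 fun i => Fin.addCases (fun i => ?_) (fun i => ?_) i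
    · simp only [Fin.append_left]
      exact differentiableAt_const _
    · simp only [Fin.append_right]
      exact differentiableAt_apply i _

/-- the zero sets are exchanged by a homeomorphism of the whole space -/
def GE (P Q : MvPolynomial (Fin N) ℂ) : Prop :=
  ∃ φ : (Fin N → ℂ) ≃ₜ (Fin N → ℂ), φ 0 = 0 ∧ ∀ z, eval z P = 0 ↔ eval (φ z) Q = 0

theorem GE.refl (P : MvPolynomial (Fin N) ℂ) : GE P P := ⟨.refl _, rfl, fun _ => .rfl⟩

theorem GE.mul {P P' : MvPolynomial (Fin N) ℂ} {Q Q' : MvPolynomial (Fin M) ℂ} (h : GE P P')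
    (k : GE Q Q') : GE (ext P Q) (ext P' Q') := by
  obtain ⟨φ, φ0, hφ⟩ := h
  obtain ⟨ψ, ψ0, hψ⟩ := k
  have e : ∀ x y, ((Fin.appendHomeomorph (X := ℂ) N M).symm.trans ((φ.prodCongr ψ).trans
      (Fin.appendHomeomorph N M))) (Fin.append x y) = Fin.append (φ x) (ψ y) := fun x y => by
    have : (Fin.appendHomeomorph (X := ℂ) N M).symm (Fin.append x y) = (x, y) :=
      (Fin.appendHomeomorph (X := ℂ) N M).symm_apply_apply (x, y)
    rw [Homeomorph.trans_apply, this]
    rfl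
  have z : Fin.append (0 : Fin N → ℂ) (0 : Fin M → ℂ) = 0 := funext fun i =>
    Fin.addCases (fun i => Fin.append_left _ _ i) (fun i => Fin.append_right _ _ i) i
  refine ⟨_, by rw [← z, e, φ0, ψ0], fun w => ?_⟩
  obtain ⟨x, y, rfl⟩ : ∃ x y, Fin.append x y = w := by
    obtain ⟨⟨x, y⟩, h⟩ := (Fin.appendEquiv N M).surjective w
    exact ⟨x, y, h⟩
  rw [e, eval_ext_append, eval_ext_append, mul_eq_zero, mul_eq_zero, hφ, hψ]

/-- one topological type in `N` variables has all orders from `a` to `b` -/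
def Fam (N a b : ℕ) : Prop :=
  ∃ (g : MvPolynomial (Fin N) ℂ) (f : ℕ → MvPolynomial (Fin N) ℂ), ∀ m, a ≤ m → m ≤ b →
    Strong (fun z => eval z (f m)) ∧ (f m : MvPowerSeries (Fin N) ℂ).order = m ∧ GE (f m) g

theorem Fam.mul {a b c d : ℕ} (h : Fam N a b) (k : Fam M c d) (hab : a ≤ b) (hcd : c ≤ d) :
    Fam (N + M) (a + c) (b + d) := by
  obtain ⟨g, f, hf⟩ := h
  obtain ⟨g', f', hf'⟩ := k
  refine ⟨ext g g', fun m => ext (f (min b (m - c))) (f' (m - min b (m - c))), fun m h1 h2 => ?_⟩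
  obtain ⟨p1, p2, p3⟩ := hf (min b (m - c)) (by omega) (by omega)
  obtain ⟨q1, q2, q3⟩ := hf' (m - min b (m - c)) (by omega) (by omega)
  exact ⟨strong_ext p1 q1, (order_ext p2 q2).trans (congrArg _ (by omega)), p3.mul q3⟩

theorem fam_one (N : ℕ) : Fam N 0 0 := by
  refine ⟨1, fun _ => 1, fun m _ h => ⟨strong_of (AnalyticOnNhd.eval_mvPolynomial _)
    ⟨0, by simp⟩ fun a => ⟨fun _ => 1, analyticOnNhd_const, ⟨0, one_ne_zero⟩,
      fun b t _ k => absurd k (by simp)⟩, ?_, .refl _⟩⟩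
  rw [Nat.le_zero.1 h, coe_one, MvPowerSeries.order_eq_nat]
  exact ⟨⟨0, by simp, by simp⟩, fun d hd => absurd hd (by simp)⟩

theorem fam_X : Fam 1 1 1 := by
  refine ⟨X 0, fun _ => X 0, fun m h1 h2 => ⟨strong_of (AnalyticOnNhd.eval_mvPolynomial _)
    ⟨1, by simp⟩ fun a => ⟨fun _ => 1, analyticOnNhd_const, ⟨0, one_ne_zero⟩,
      fun b t _ _ k => ?_⟩, ?_, .refl _⟩⟩
  · simp only [eval_X] at k
    rw [(hasFDerivAt_apply (𝕜 := ℂ) (0 : Fin 1) (b + t • a)).fderiv] at k
    simpa using congrArg (fun L => L 1) k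
  · rw [le_antisymm h2 h1, coe_X, MvPowerSeries.X, MvPowerSeries.order_monomial_of_ne_zero
      one_ne_zero]
    simp

theorem strong_crit {P : MvPolynomial (Fin (N + 2)) ℂ}
    (h : ∀ z, fderiv ℂ (fun z => eval z P) z = 0 → z = 0) : Strong fun z => eval z P := by
  refine strong_of (AnalyticOnNhd.eval_mvPolynomial _) ?_ fun a => ?_
  · by_contra! k
    have := h 1 (by simp [k])
    exact one_ne_zero (congrFun this 0)
  by_cases c : a 0 = 0
  · refine ⟨fun b => b 0, fun b _ => (ContinuousLinearMap.proj (R := ℂ)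
      (φ := fun _ : Fin (N + 2) => ℂ) 0).analyticAt b, ⟨1, one_ne_zero⟩, fun b t k _ e => k ?_⟩
    simpa [c] using congrFun (h _ e) 0
  · refine ⟨fun b => a 0 * b 1 - a 1 * b 0, fun b _ =>
      (analyticAt_const.mul ((ContinuousLinearMap.proj (R := ℂ)
        (φ := fun _ : Fin (N + 2) => ℂ) 1).analyticAt b)).sub
      (analyticAt_const.mul ((ContinuousLinearMap.proj (R := ℂ)
        (φ := fun _ : Fin (N + 2) => ℂ) 0).analyticAt b)), ⟨Pi.single 1 1, by simpa using c⟩,
      fun b t k _ e => k ?_⟩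
    have h0 : b 0 + t * a 0 = 0 := congrFun (h _ e) 0
    have h1 : b 1 + t * a 1 = 0 := congrFun (h _ e) 1
    linear_combination a 0 * h1 - a 1 * h0

theorem fam_base : ∃ N, Fam N 2 3 := by
  obtain ⟨N₀, h⟩ := P268.H671.large
  obtain ⟨p, q, φ, h0, hφ, hp, hq, hr⟩ := h (N₀ + 2) (by omega)
  have ev : ∀ (r : MvPolynomial (Fin (N₀ + 2)) ℤ),
      (fun z => eval z (r.map (Int.castRingHom ℂ))) = fun z : Fin (N₀ + 2) → ℂ => aeval z r :=
    fun r => funext fun z => eval_map _ _ _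
  have hp' : (P268W88.ofInt p).1.order = (3 : ℕ) :=
    P268W88.order_of_sInf (by rw [P268W88.val_ofInt]; exact hp) (by norm_num)
  have hq' : (P268W88.ofInt q).1.order = (2 : ℕ) :=
    P268W88.order_of_sInf (by rw [P268W88.val_ofInt]; exact hq) (by norm_num)
  refine ⟨N₀ + 2, q.map (Int.castRingHom ℂ),
    fun m => if m = 2 then q.map (Int.castRingHom ℂ) else p.map (Int.castRingHom ℂ),
    fun m h1 h2 => ?_⟩
  by_cases c : m = 2
  · subst c
    simp only [if_true]
    exact ⟨strong_crit (by rw [ev]; exact (hr q (.inr rfl)).2.1), hq', .refl _⟩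
  · obtain rfl : m = 3 := by omega
    simp only [if_neg c]
    refine ⟨strong_crit (by rw [ev]; exact (hr p (.inl rfl)).2.1), hp', φ, h0, fun z => ?_⟩
    rw [congrFun (ev p) z, congrFun (ev q) (φ z)]
    exact hφ z

theorem fam_all (n : ℕ) : ∃ N₀, ∀ N ≥ N₀, Fam N n (n + n / 2) := by
  obtain ⟨M, hM⟩ := fam_base
  have a : ∀ j, Fam (j * M) (2 * j) (3 * j) := fun j => by
    induction j with
    | zero => exact fam_one _
    | succ j ih =>
      rw [Nat.succ_mul]
      exact ih.mul hM (by omega) (by omega)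
  have b : ∃ K, Fam K n (n + n / 2) := by
    obtain ⟨j, rfl | rfl⟩ := Nat.even_or_odd' n
    · exact ⟨_, by rw [show 2 * j + 2 * j / 2 = 3 * j by omega]; exact a j⟩
    · exact ⟨_, by
        rw [show 2 * j + 1 + (2 * j + 1) / 2 = 3 * j + 1 by omega]
        exact (a j).mul fam_X (by omega) le_rfl⟩
  obtain ⟨K, hK⟩ := b
  refine ⟨K, fun N hN => ?_⟩
  obtain ⟨r, rfl⟩ := Nat.exists_eq_add_of_le hN
  exact hK.mul (fam_one r) (by omega) le_rfl

theorem reduced_of_strong {P : MvPolynomial (Fin N) ℂ} (h : Strong fun z => eval z P) {m : ℕ}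
    (ho : (P : MvPowerSeries (Fin N) ℂ).order = m) (hm : m ≠ 0) :
    Reduced (P : MvPowerSeries (Fin N) ℂ) := by
  have c : Conv (P : MvPowerSeries (Fin N) ℂ) :=
    Eventually.of_forall fun z => (P268W88.hasSum_poly P z).summable
  refine ⟨c, (P268W88.isGerm_of_order (f := ⟨_, c⟩) ho hm).2, fun u v hu hv h0 e => ?_⟩
  let u' : P268W88.Cvg N := ⟨u, hu⟩
  let v' : P268W88.Cvg N := ⟨v, hv⟩
  refine h.red (P268W88.val_analytic u') (P268W88.val_analytic v')
    ((P268W88.val_zero u').trans h0) ?_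
  filter_upwards [P268W88.val_mul (u' * u') v', P268W88.val_mul u' u'] with z h1 h2
  have e' : u' * u' * v' = ⟨_, c⟩ := Subtype.ext ((by rw [sq] : u * u * v = u ^ 2 * v).trans e.symm)
  rw [e', Pi.mul_apply, h2, Pi.mul_apply] at h1
  rw [sq, ← h1]
  exact (P268W88.hasSum_poly P z).tsum_eq.symm

theorem GE.image {P Q R : MvPolynomial (Fin N) ℂ} (h : GE P R) (k : GE Q R) :
    ∃ φ : (Fin N → ℂ) ≃ₜ (Fin N → ℂ), φ 0 = 0 ∧
      φ '' {z | eval z P = 0} = {z | eval z Q = 0} := by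
  obtain ⟨φ, φ0, hφ⟩ := h
  obtain ⟨ψ, ψ0, hψ⟩ := k
  refine ⟨φ.trans ψ.symm, by rw [Homeomorph.trans_apply, φ0, ψ.symm_apply_eq, ψ0], ?_⟩
  ext y
  constructor
  · rintro ⟨x, hx, rfl⟩
    exact (hψ _).2 (by rw [Homeomorph.trans_apply, ψ.apply_symm_apply]; exact (hφ x).1 hx)
  · intro hy
    refine ⟨φ.symm (ψ y), (hφ _).2 ?_, by simp⟩
    rw [φ.apply_symm_apply]
    exact (hψ y).1 hy

theorem amb_of_image {P Q : MvPolynomial (Fin N) ℂ} {φ : (Fin N → ℂ) ≃ₜ (Fin N → ℂ)}
    (h0 : φ 0 = 0) (h : φ '' {z | eval z P = 0} = {z | eval z Q = 0}) :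
    AmbHomeo (P : MvPowerSeries (Fin N) ℂ) (Q : MvPowerSeries (Fin N) ℂ) := by
  have e : ∀ R : MvPolynomial (Fin N) ℂ,
      {z | HasSum (term (R : MvPowerSeries (Fin N) ℂ) z) 0} = {z | eval z R = 0} := fun R =>
    Set.ext fun z => ⟨fun k => (P268W88.hasSum_poly R z).unique k,
      fun k => (show eval z R = 0 from k) ▸ P268W88.hasSum_poly R z⟩
  refine ⟨φ.toOpenPartialHomeomorph, mem_univ _, h0,
    fun z _ => (P268W88.hasSum_poly P z).summable,
    fun z _ => (P268W88.hasSum_poly Q z).summable, ?_⟩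
  rw [e, e]
  simpa using h

theorem many (n : ℕ) (hn : 2 ≤ n) : ∃ N₀, ∀ N ≥ N₀, ∃ f : ℕ → MvPolynomial (Fin N) ℂ,
    ∀ m, n ≤ m → 2 * m ≤ 3 * n →
      Reduced (f m : MvPowerSeries (Fin N) ℂ) ∧ (f m : MvPowerSeries (Fin N) ℂ).order = m ∧
      ∃ φ : (Fin N → ℂ) ≃ₜ (Fin N → ℂ), φ 0 = 0 ∧
        φ '' {z | eval z (f m) = 0} = {z | eval z (f n) = 0} := by
  obtain ⟨N₀, h⟩ := fam_all n
  refine ⟨N₀, fun N hN => ?_⟩
  obtain ⟨g, f, hf⟩ := h N hN
  refine ⟨f, fun m h1 h2 => ?_⟩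
  obtain ⟨a, b, c⟩ := hf m h1 (by omega)
  exact ⟨reduced_of_strong a b (by omega), b, c.image (hf n le_rfl (by omega)).2.2⟩

theorem not_q1 : ¬ ∀ N, 1 ≤ N → ∀ f g : MvPowerSeries (Fin N) ℂ, Reduced f → Reduced g →
    AmbHomeo f g → f.order = g.order := by
  intro H
  obtain ⟨N₀, h⟩ := many 2 le_rfl
  obtain ⟨f, hf⟩ := h (N₀ + 1) (by omega)
  obtain ⟨a, b, φ, h0, hφ⟩ := hf 3 (by omega) (by omega)
  obtain ⟨c, d, -⟩ := hf 2 le_rfl (by omega)
  have := H _ (by omega) _ _ a c (amb_of_image h0 hφ)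
  rw [b, d] at this
  exact absurd (Nat.cast_injective this) (by omega)

end Vale.Agent.N268
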